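import Vale.Agent.P216.B7.Props
import Vale.Agent.P216.H892.Fib
import Vale.Agent.P216.H923E.Geo2

/-!
# P216-B7, Z10: the path spaces over the infinite cyclic covering (frame)

`PZ h p p' t`: Moore-Lipschitz paths of time `t` whose lift goes from `p` to `p'` in `Xt h`.
`XZ h p' t`: paths to `p'`, with the height of the starting point; `stz (w, r) = (w 0, r)`.
-/

set_option linter.all false

open Set BoundedContinuousFunction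

namespace Vale.Agent.P216.H971Z

open Vale.Agent.P216.Sl Vale.Agent.P216.PS Vale.Agent.P216.B7 Vale.Agent.P216.E2L
open Vale.Agent.P216.H456 (PF)
open Vale.Agent.P216.H892 (FibN FibC FibR nbh CtgC)

variable {M : Type} [MetricSpace M]

/-- The path `w` of time `m` has a lift which goes from the height `r` to the height `s`. -/
def Lf (h : C(M, Circle)) (m r s : ℝ) (w : ℝ → M) : Prop :=
  ∃ θ : ℝ → ℝ, Continuous θ ∧ (∀ u, h (w u) = ex (θ u)) ∧ (∀ u ≤ 0, θ u = r) ∧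
    ∀ u, m ≤ u → θ u = s

/-- The paths of time `t` from `p` to `p'` in `Xt h`. -/
def PZ (h : C(M, Circle)) (p p' : M × ℝ) (t : ℝ) : Set (ℝ →ᵇ M) :=
  {w | w ∈ P p.1 p'.1 t ∧ Lf h t p.2 p'.2 w}

/-- The paths of time `t` to `p'` in `Xt h`, with the height of the starting point. -/
def XZ (h : C(M, Circle)) (p' : M × ℝ) (t : ℝ) : Set ((ℝ →ᵇ M) × ℝ) :=
  {z | z.1 ∈ PF p'.1 t ∧ Lf h t z.2 p'.2 z.1}

/-- The starting point. -/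
def stz (z : (ℝ →ᵇ M) × ℝ) : M × ℝ := (z.1 0, z.2)

section goals

variable (M) [CompactSpace M] (h : C(M, Circle))

/-- (G2) -/
def G2Goal : Prop := ∀ R : ℝ, ∃ t : ℝ, 0 ≤ t ∧ ∀ p ∈ Slb h R, ∀ p' ∈ Slb h R,
  (PZ h p p' t).Nonempty

/-- (G3) -/
def G3Goal : Prop := ∀ R t : ℝ, ∃ t' : ℝ, t ≤ t' ∧ ∀ p ∈ Slb h R, ∀ p' ∈ Slb h R,
  ∀ v ∈ PZ h p p' t, ∀ v' ∈ PZ h p p' t, JoinedIn (PZ h p p' t') v v'

/-- (F1): the reach. -/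
def F1Goal : Prop := ∀ p' ∈ Xt h, ∀ t : ℝ, ∃ R : ℝ, ∀ z ∈ XZ h p' t, stz z ∈ Slb h R

/-- (F2): the contraction. -/
def F2Goal : Prop := ∀ p' ∈ Xt h, ∀ t : ℝ, 0 ≤ t → ∀ (k : Type) [Field k] (q : ℕ), 1 ≤ q →
  ∀ F : List ((ℝ →ᵇ M) × ℝ) → k, CocL (XZ h p' t) q F → ExL (XZ h p' t) q F

/-- (FN): the fibre data over the slabs. -/
def FNGoal : Prop := ∀ p₀ ∈ Xt h, ∀ p' ∈ Xt h, ∀ R : ℝ, ∃ C : ℝ, 0 ≤ C ∧
  ∃ (φ : M × ℝ → ℝ → (ℝ →ᵇ M) × ℝ → ℝ →ᵇ M) (ψ : M × ℝ → ℝ → (ℝ →ᵇ M) → (ℝ →ᵇ M) × ℝ),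
    ∀ t > 0,
      (∀ T, t + C ≤ T → FibN stz (Slb h R) (XZ h p' (T + C)) (XZ h p' t) (PZ h p₀ p' T)
        (PZ h p₀ p' (t + C)) (fun x => φ x t) fun x => ψ x T) ∧
      FibC stz (Slb h R) (XZ h p' t) (PZ h p₀ p' (t + C)) (fun x => φ x t) ∧
      (C < t → FibR stz (Slb h R) (XZ h p' t) (PZ h p₀ p' (t + C)) (PZ h p₀ p' (t - C))
        (fun x => φ x t) fun x => ψ x (t - C))

/-- (LOW): the classes of low degree of the fibres (fixed ends). -/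
def LowGoal (k : Type) [Field k] (q : ℕ) : Prop := ∀ p ∈ Xt h, ∀ p' ∈ Xt h, ∀ t : ℝ, ∀ j : ℕ,
  1 ≤ j → j < q → ∃ T, t ≤ T ∧ ∀ F : List (ℝ →ᵇ M) → k,
    CocL (PZ h p p' T) j F → ExL (PZ h p p' t) j F

end goals

/-! ### First properties -/

section

variable {h : C(M, Circle)} {m m' r s r' s' t t' : ℝ} {p p' : M × ℝ} {w w' : ℝ → M}

theorem Lf.mono (H : Lf h m r s w) (hm : m ≤ m') : Lf h m' r s w := by
  obtain ⟨θ, h1, h2, h3, h4⟩ := H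
  exact ⟨θ, h1, h2, h3, fun u hu => h4 u (hm.trans hu)⟩

theorem PZ_mono (ht : t ≤ t') : PZ h p p' t ⊆ PZ h p p' t' := fun _ hw =>
  ⟨P_mono ht hw.1, hw.2.mono ht⟩

theorem XZ_mono (ht : t ≤ t') : XZ h p' t ⊆ XZ h p' t' := fun _ hz =>
  ⟨H456.PF_mono ht hz.1, hz.2.mono ht⟩

theorem dist_stz_le (z z' : (ℝ →ᵇ M) × ℝ) : dist (stz z) (stz z') ≤ dist z z' := by
  rw [Prod.dist_eq, Prod.dist_eq]
  exact max_le_max (BoundedContinuousFunction.dist_coe_le_dist 0) le_rfl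

/-- The fibre of `XZ` over `p`. -/
theorem mem_XZ_iff {z : (ℝ →ᵇ M) × ℝ} : (z ∈ XZ h p' t ∧ stz z = p) ↔
    z.1 ∈ PZ h p p' t ∧ z.2 = p.2 := by
  constructor
  · rintro ⟨⟨h1, h2⟩, rfl⟩
    exact ⟨⟨H456.mem_PF_iff.1 h1, h2⟩, rfl⟩
  · rintro ⟨⟨h1, h2⟩, h3⟩
    refine ⟨⟨H456.P_subset_PF h1, by rw [h3]; exact h2⟩, ?_⟩
    exact Prod.ext (eq_left h1 le_rfl) h3

end

end Vale.Agent.P216.H971Z
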