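import Vale.Agent.P216.H971Z.GeoI2
import Vale.Agent.P216.H456Z.Ht
import Vale.Agent.P216.H892.FibU

/-!
# P216-B7, Z10: heights of conjugated paths, refinement of homotopies, the maps `φ`, `ψ`
-/

set_option linter.all false

open Set BoundedContinuousFunction

namespace Vale.Agent.P216.H971Z

open Vale.Agent.P216.Sl Vale.Agent.P216.PS Vale.Agent.P216.B7 Vale.Agent.P216.E2L
open Vale.Agent.P216.MV337 Vale.Agent.P216.H923E
open Vale.Agent.P216.C337 hiding ex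
open Vale.Agent.P216.H456 (PF)
open Vale.Agent.P216.H456Z (HT dlt dlt_small ex_eq lift_eqOn)
open Vale.Agent.P216.H892 (FibN FibC nbh CtgC)

/-! ### Refinement of homotopies -/

section refine

variable {I E E' : Type} [PseudoMetricSpace E] [PseudoMetricSpace E'] {Z Z' : I → Set E}
  {Y Y' : I → Set E'} {f g : I → E → E'}

/-- `Y'` is a union of path components of `Y`. -/
def Pcu (Y Y' : Set E') : Prop := ∀ γ : ℝ → E', ContinuousOn γ (Icc 0 1) →
  (∀ s ∈ Icc (0:ℝ) 1, γ s ∈ Y) → γ 0 ∈ Y' → ∀ s ∈ Icc (0:ℝ) 1, γ s ∈ Y'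

theorem UH.refine' (H : UH Z Y f g) (hZ : ∀ i, Z' i ⊆ Z i) (hY : ∀ i, Pcu (Y i) (Y' i))
    (h0 : ∀ i, ∀ w ∈ Z' i, f i w ∈ Y' i) : UH Z' Y' f g := by
  obtain ⟨D, h1, h2, h3, h4, h5⟩ := H
  refine ⟨D, fun i s hs w hw => ?_, fun i => (h2 i).mono (hZ i), fun i => (h3 i).mono (hZ i),
    fun ε hε => ?_, fun i ε hε => ?_⟩
  · refine hY i (fun s => D i s w) ?_ (fun s hs => h1 i s hs (hZ i hw)) ?_ s hs
    · rw [Metric.continuousOn_iff]
      intro a ha ε hε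
      obtain ⟨δ, hδ, h⟩ := h5 i ε hε
      exact ⟨δ, hδ, fun b hb hd => h b hb a ha hd w (hZ i hw)⟩
    · show D i 0 w ∈ Y' i
      rw [h2 i (hZ i hw)]
      exact h0 i w hw
  · obtain ⟨δ, hδ, h⟩ := h4 ε hε
    exact ⟨δ, hδ, fun i s hs w hw w' hw' => h i s hs w (hZ i hw) w' (hZ i hw')⟩
  · obtain ⟨δ, hδ, h⟩ := h5 i ε hε
    exact ⟨δ, hδ, fun s hs s' hs' hd w hw => h s hs s' hs' hd w (hZ i hw)⟩

end refine

/-! ### Heights -/

variable {M : Type} [MetricSpace M] {h : C(M, Circle)}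

section ht

variable {w w' v : ℝ → M} {m t r s β : ℝ} {b : M}

theorem lf_of_HT (H : HT h w r s) (h0 : ∀ u ≤ 0, w u = w 0) (h1 : ∀ u, m ≤ u → w u = w m) :
    Lf h m r s w := by
  obtain ⟨θ, c, e, z, T, t1⟩ := H
  exact ⟨θ, c, fun u => (e u).symm, fun u hu => H456Z.lift_left c e z h0 hu,
    fun u hu => H456Z.lift_right c e t1 h1 hu⟩

theorem Lf.toHT (H : Lf h m r s w) : HT h w r s := by
  obtain ⟨θ, c, e, z, t1⟩ := H
  exact ⟨θ, c, fun u => (e u).symm, z 0 le_rfl, m, t1⟩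

/-- The height of the start. -/
noncomputable def hgt (h : C(M, Circle)) (β : ℝ) (w : ℝ → M) : ℝ :=
  open Classical in if H : ∃ r, HT h w r β then H.choose else 0

theorem hgt_eq (H : HT h w r β) : hgt h β w = r := by
  have H' : ∃ r, HT h w r β := ⟨r, H⟩
  rw [hgt, dif_pos H']
  exact H'.choose_spec.unique H

theorem Lf.hgt_eq (H : Lf h m r β w) : hgt h β w = r := H971Z.hgt_eq H.toHT

theorem ht_hgt (H : HT h w r β) : HT h w (hgt h β w) β := by
  rw [hgt_eq H]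
  exact H

end ht

variable [CompactSpace M] {p₀ p' : M × ℝ} {t T r β : ℝ}

/-- Paths to `b` have heights. -/
theorem exists_lf {b : M} (hb : h b = ex β) {w : ℝ →ᵇ M} (hw : w ∈ PF b t) :
    Lf h t (hgt h β w) β w := by
  obtain ⟨C, -, H⟩ := H456Z.exists_HT h t
  obtain ⟨r, hr, -⟩ := H w b β hw.1 hw.2.1 hw.2.2 hb.symm
  exact lf_of_HT (ht_hgt hr) hw.2.1 fun u hu => by rw [hw.2.2 u hu, hw.2.2 t le_rfl]

theorem ex_hgt {b : M} (hb : h b = ex β) {w : ℝ →ᵇ M} (hw : w ∈ PF b t) :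
    ex (hgt h β w) = h (w 0) := (exists_lf hb hw).toHT.mem

theorem mem_XZ_iff' (hp : p' ∈ Xt h) {z : (ℝ →ᵇ M) × ℝ} :
    z ∈ XZ h p' t ↔ z.1 ∈ PF p'.1 t ∧ z.2 = hgt h p'.2 z.1 := by
  constructor
  · rintro ⟨h1, h2⟩
    exact ⟨h1, h2.hgt_eq.symm⟩
  · rintro ⟨h1, h2⟩
    refine ⟨h1, ?_⟩
    rw [h2]
    exact exists_lf hp h1

theorem mem_PZ_iff' (hp : p' ∈ Xt h) {w : ℝ →ᵇ M} :
    w ∈ PZ h p₀ p' t ↔ w ∈ P p₀.1 p'.1 t ∧ hgt h p'.2 w = p₀.2 := by
  constructor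
  · rintro ⟨h1, h2⟩
    exact ⟨h1, h2.hgt_eq⟩
  · rintro ⟨h1, h2⟩
    refine ⟨h1, ?_⟩
    rw [← h2]
    exact exists_lf hp (H456.P_subset_PF h1)

/-- The modulus of the height. -/
theorem hgt_close (h : C(M, Circle)) {ε : ℝ} (hε : 0 < ε) : ∃ δ > 0, ∀ (b : M) (β t t' : ℝ),
    h b = ex β → ∀ w ∈ PF b t, ∀ w' ∈ PF b t', dist w w' < δ →
      hgt h β w' = hgt h β w + dlt h (w 0) (w' 0) ∧ |hgt h β w - hgt h β w'| < ε := by
  obtain ⟨δ, hδ, H⟩ := dlt_small h hε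
  refine ⟨δ, hδ, fun b β t t' hb w hw w' hw' hd => ?_⟩
  have hu : ∀ u, dist (w u) (w' u) ≤ δ := fun u =>
    ((BoundedContinuousFunction.dist_coe_le_dist u).trans_lt hd).le
  have e := hgt_eq ((exists_lf hb hw).toHT.close w.continuous w'.continuous
    (fun u => (H _ _ (hu u)).1) (T := max t t') fun u hu => by
      rw [hw.2.2 u ((le_max_left _ _).trans hu), hw'.2.2 u ((le_max_right _ _).trans hu)])
  refine ⟨e, ?_⟩
  rw [e, show hgt h β w - (hgt h β w + dlt h (w 0) (w' 0)) = -dlt h (w 0) (w' 0) by ring, abs_neg]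
  exact (H _ _ (hu 0)).2

theorem continuousOn_hgt {b : M} (hb : h b = ex β) :
    ContinuousOn (fun w : ℝ →ᵇ M => hgt h β w) (PF b t) := by
  rw [Metric.continuousOn_iff]
  intro w hw ε hε
  obtain ⟨δ, hδ, H⟩ := hgt_close h hε
  exact ⟨δ, hδ, fun w' hw' hd => (H b β t t hb w' hw' w hw hd).2⟩

/-- `PZ` is a union of path components of `P`. -/
theorem pcu_PZ (hp : p' ∈ Xt h) : Pcu (P p₀.1 p'.1 t) (PZ h p₀ p' t) := by
  intro γ hγ hm h0 s hs
  rw [mem_PZ_iff' hp] at h0 ⊢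
  refine ⟨hm s hs, ?_⟩
  refine lift_eqOn (isPreconnected_Icc (a := (0:ℝ)) (b := 1))
    (f := fun s => hgt h p'.2 (γ s)) (g := fun _ => p₀.2)
    ((continuousOn_hgt (t := t) hp).comp hγ fun s hs => H456.P_subset_PF (hm s hs))
    continuousOn_const (fun s hs => ?_) (x₀ := 0) zero_mem_I ?_ hs
  · have e0 := ex_hgt hp (H456.P_subset_PF (hm 0 zero_mem_I))
    have e1 := ex_hgt hp (H456.P_subset_PF (hm s hs))
    rw [e1, eq_left (hm s hs) le_rfl, ← h0.2, e0, eq_left (hm 0 zero_mem_I) le_rfl]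
  · rw [h0.2, sub_self, abs_zero]
    exact one_pos

/-- A sheet: the paths to `p'` which start near `x.1` at the height of `x`. -/
def Sht (h : C(M, Circle)) (p' x : M × ℝ) (D : Set M) (t : ℝ) : Set (ℝ →ᵇ M) :=
  {w | w ∈ XL (fun _ => p'.1) D t ∧ hgt h p'.2 w = x.2 + dlt h x.1 (w 0)}

/-- The sheets are unions of path components. -/
theorem pcu_Sht (hp : p' ∈ Xt h) {x : M × ℝ} (hx : x ∈ Xt h) {D : Set M}
    (hD : ∀ a ∈ D, dist (h x.1) (h a) < 1) : Pcu (XL (fun _ => p'.1) D t) (Sht h p' x D t) := by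
  intro γ hγ hm h0 s hs
  refine ⟨hm s hs, ?_⟩
  have hev : ContinuousOn (fun s => γ s 0) (Icc 0 1) := continuousOn_eval hγ continuousOn_const
  refine lift_eqOn (isPreconnected_Icc (a := (0:ℝ)) (b := 1))
    (f := fun s => hgt h p'.2 (γ s)) (g := fun s => x.2 + dlt h x.1 (γ s 0))
    ((continuousOn_hgt (t := t) hp).comp hγ fun s hs => (hm s hs).1)
    (continuousOn_const.add ?_) (fun s hs => ?_) (x₀ := 0) zero_mem_I ?_ hs
  · intro s hs
    have h1 : ContinuousWithinAt (fun s => ((h (γ s 0) / h x.1 : Circle) : ℂ)) (Icc 0 1) s :=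
      continuous_subtype_val.continuousAt.comp_continuousWithinAt
        ((h.continuous.continuousAt.comp_continuousWithinAt (hev s hs)).div'
          continuousWithinAt_const)
    have h2 : (((h (γ s 0) / h x.1 : Circle) : ℂ)) ∈ Complex.slitPlane :=
      Or.inl (H456Z.quot_re (hD _ (hm s hs).2))
    have h3 : ContinuousWithinAt (fun s => Complex.arg ((h (γ s 0) / h x.1 : Circle) : ℂ))
        (Icc 0 1) s := ContinuousAt.comp_continuousWithinAt (g := Complex.arg)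
      (f := fun s => ((h (γ s 0) / h x.1 : Circle) : ℂ)) (Complex.continuousAt_arg h2) h1
    exact h3.div_const _
  · have e1 := ex_hgt hp (hm s hs).1
    rw [e1]
    exact (H456Z.ex_add_dlt hx.symm).symm
  · rw [h0.2, sub_self, abs_zero]
    exact one_pos

end Vale.Agent.P216.H971Z
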