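import Vale.Agent.P216.H971Z.FibA

/-!
# P216-B7, Z10: the tracks over a part of `Xt h` and the maps `φ`, `ψ` of the fibre step
-/

set_option linter.all false

open Set BoundedContinuousFunction

namespace Vale.Agent.P216.H971Z

open Vale.Agent.P216.Sl Vale.Agent.P216.PS Vale.Agent.P216.B7 Vale.Agent.P216.E2L
open Vale.Agent.P216.MV337 Vale.Agent.P216.H923E
open Vale.Agent.P216.C337 hiding ex
open Vale.Agent.P216.H456 (PF)
open Vale.Agent.P216.H456Z (HT dlt dlt_small ex_eq lift_eqOn sheet dlt_self)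
open Vale.Agent.P216.H892 (FibN FibC nbh CtgC)

variable {M : Type} [MetricSpace M] {h : C(M, Circle)} [CompactSpace M]

/-- The tracks: `c x` goes from `x` to `p₀` in `Xt h`, for `x ∈ A`. -/
structure TrZ (h : C(M, Circle)) (p₀ p' : M × ℝ) (A : Set (M × ℝ)) (ρ R ℓ₀ ℓ r0 : ℝ)
    (c : M × ℝ → ℝ → M) : Prop where
  hA : A ⊆ Xt h
  h0 : p₀ ∈ Xt h
  hp : p' ∈ Xt h
  tr : TrI (fun i : A => i.1.1) p₀.1 ρ R ℓ₀ ℓ r0 fun i => c i.1
  hl : ∀ x ∈ A, Lf h ℓ₀ x.2 p₀.2 (c x)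
  near : ∀ x a : M, dist x a ≤ 2 * r0 → dist (h x) (h a) < 1
  join : ∀ x ∈ A, ∀ y ∈ A, dist x.1 y.1 ≤ 2 * r0 → |x.2 - y.2| < 1 / 4 →
    JoinedIn (P y.1 p₀.1 ℓ) (mo (catf R (sg R y.1 x.1) (c x))) (mo (c y))
  base : p₀ ∈ A → c p₀ = fun _ => p₀.1

/-- The map `φ`: conjugation to `p₀` of the paths which start near `x`. -/
noncomputable def phZ (p' : M × ℝ) (R ℓ : ℝ) (c : M × ℝ → ℝ → M) (x : M × ℝ) (t : ℝ)
    (z : (ℝ →ᵇ M) × ℝ) : ℝ →ᵇ M := phI (fun _ => p'.1) R ℓ x.1 (c x) t z.1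

/-- The map `ψ`: conjugation back to `x`. -/
noncomputable def psZ (p' : M × ℝ) (R ℓ : ℝ) (c : M × ℝ → ℝ → M) (x : M × ℝ) (t : ℝ)
    (v : ℝ →ᵇ M) : (ℝ →ᵇ M) × ℝ := (psI (fun _ => p'.1) R ℓ (c x) t v, x.2)

theorem hgc (b x y : M) : dist ((fun _ : M => b) x) ((fun _ : M => b) y) ≤ dist x y := by
  rw [dist_self]
  exact dist_nonneg

section lf

variable {m t r s β : ℝ} {b z : M}

/-- The height of a conjugated path. -/
theorem lf_cg {p : ℝ → M} {w : ℝ →ᵇ M} (hm : 0 ≤ m) (ht : 0 ≤ t) (hp : Pt m (w 0) z p)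
    (hw : w ∈ PF b t) (Hp : Lf h m r s p) (Hw : Lf h t r β w) :
    Lf h (t + (m + m)) s β (cg (fun _ => b) m t p w) := by
  have hw' : w ∈ XG (fun _ : M => b) t := hw
  have hmem := cg_mem_P (g := fun _ : M => b) (hgc b) hm ht hp hw'
  refine lf_of_HT ?_ (fun u hu => by rw [eq_left hmem hu, eq_left hmem le_rfl])
    fun u hu => by rw [eq_right hmem hu, eq_right hmem le_rfl]
  have e0 : p (m - m) = w 0 := by rw [sub_self, hp.zero]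
  refine ((Hp.toHT.rev (fun u hu => by rw [hp.2.1 u hu, hp.zero])
    fun u hu => by rw [hp.2.2 u hu, hp.2.2 m le_rfl]).cat Hw.toHT hm
      (fun u hu => by rw [hp.2.1 _ (by linarith), hp.2.1 _ (by linarith)]) e0).congr
      fun u => ?_
  rw [cg_apply (hgc b) ht hp hw']
  rcases le_total u m with h1 | h1
  · rw [c2_one h1, catf_left h1]
  · rw [catf_right (f := fun u => p (m - u)) (g := w) e0 h1]
    rcases le_total u (m + t) with h2 | h2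
    · rw [c2_two hp.zero.symm h1 h2]
    · have e1 : w t = ((fun _ : M => b) ∘ p) 0 := hw.2.2 t le_rfl
      rw [c2_three hp.zero.symm ht e1 h2, hw.2.2 _ (by linarith)]
      rfl

/-- Short segments. -/
theorem lf_sg {ρ R : ℝ} {a x : M} (hU : LS.UniqSeg M ρ) (hR : 0 < R) (h1 : dist a x < ρ)
    (h2 : dist a x ≤ R) (hn : ∀ y, dist a y ≤ dist a x → dist (h a) (h y) < 1)
    (hs : ex s = h a) (hr : ex r = h x) (hrs : |r - s| < 3 / 4) : Lf h R s r (sg R a x) := by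
  have hP := sg_pt hU hR h1 h2
  refine lf_of_HT ?_ (fun u hu => by rw [hP.2.1 u hu, hP.zero])
    fun u hu => by rw [hP.2.2 u hu, hP.2.2 R le_rfl]
  have e1 := sheet (x := a) (a := x) (r := s) (s := r) hs hr (hn x le_rfl) hrs
  have e2 := HT.of_short (h := h) (w := sg R a x) (r := s) (b := x) (by rw [hP.zero]; exact hs)
    hP.1.continuous (fun u => by
      rw [hP.zero]
      refine hn _ ?_
      show dist a (LS.seg a x (cl1 (u / R))) ≤ _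
      rw [LS.dist_left_seg hU h1 (cl1_mem _)]
      exact mul_le_of_le_one_left dist_nonneg (cl1_mem _).2) (T := R) fun u hu => hP.2.2 u hu
  rw [hP.zero, ← e1] at e2
  exact e2

/-- Concatenation with a track. -/
theorem lf_catf {R ℓ : ℝ} {v w : ℝ → M} {a x y : M} (hv : Pt R a x v) (hw : Pt ℓ x y w)
    (hR : 0 ≤ R) (hℓ : 0 ≤ ℓ) (Hv : Lf h R r s v) (Hw : Lf h ℓ s β w) :
    Lf h (R + ℓ) r β (catf R v w) := by
  have hc := hv.cat hw hR hℓ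
  refine lf_of_HT (Hv.toHT.cat Hw.toHT hR (fun u hu => by rw [hv.2.2 u hu, hv.2.2 R le_rfl])
    (by rw [hv.2.2 R le_rfl, hw.zero])) (fun u hu => by rw [hc.2.1 u hu, hc.zero])
    fun u hu => by rw [hc.2.2 u hu, hc.2.2 _ le_rfl]

end lf

namespace TrZ

variable {p₀ p' : M × ℝ} {A : Set (M × ℝ)} {ρ R ℓ₀ ℓ r0 t : ℝ} {c : M × ℝ → ℝ → M}
  (T : TrZ h p₀ p' A ρ R ℓ₀ ℓ r0 c)
include T

/-- the path of `φ` and its height -/
theorem lf_pF {x : M × ℝ} (hx : x ∈ A) {a : M} {s : ℝ} (ha : dist x.1 a ≤ r0) (hs : ex s = h a)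
    (hxs : |x.2 - s| < 3 / 4) : Pt (R + ℓ) a p₀.1 (pF R x.1 (c x) a) ∧
      Lf h (R + ℓ) s p₀.2 (pF R x.1 (c x) a) := by
  have hr0 := T.tr.hr0
  have hrR := T.tr.hrR
  have hRρ := T.tr.hRρ
  have hR := T.tr.hR
  have ha' : dist a x.1 ≤ r0 := by rwa [dist_comm]
  have h1 := T.tr.sgp (r := r0) le_rfl (a := a) (x := x.1) ha
  have h2 : Pt ℓ x.1 p₀.1 (c x) := T.tr.cpt ⟨x, hx⟩
  have h3 : Lf h R s x.2 (sg R a x.1) := lf_sg T.tr.hU hR (by linarith) (by linarith)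
    (fun y hy => T.near a y (by linarith)) hs (T.hA hx).symm hxs
  exact ⟨h1.cat h2 hR.le T.tr.ℓ_nonneg, lf_catf h1 h2 hR.le T.tr.ℓ_nonneg h3
    ((T.hl x hx).mono T.tr.hℓ₀ℓ)⟩

/-- the path of `ψ` and its height -/
theorem lf_pG {x : M × ℝ} (hx : x ∈ A) : Pt (R + ℓ) p₀.1 x.1 (pG ℓ (c x)) ∧
    Lf h (R + ℓ) p₀.2 x.2 (pG ℓ (c x)) := by
  have h1 : Pt (R + ℓ) p₀.1 x.1 (pG ℓ (c x)) := T.tr.pψ_pt ⟨x, hx⟩
  have h2 : Pt ℓ x.1 p₀.1 (c x) := T.tr.cpt ⟨x, hx⟩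
  refine ⟨h1, lf_of_HT ?_ (fun u hu => by rw [h1.2.1 u hu, h1.zero])
    fun u hu => by rw [h1.2.2 u hu, h1.2.2 _ le_rfl]⟩
  exact ((T.hl x hx).mono T.tr.hℓ₀ℓ).toHT.rev (fun u hu => by rw [h2.2.1 u hu, h2.zero])
    fun u hu => by rw [h2.2.2 u hu, h2.2.2 _ le_rfl]

/-- **`φ` maps to the model fibre.** -/
theorem phZ_mem (ht : 0 ≤ t) {x : M × ℝ} (hx : x ∈ A) {z : (ℝ →ᵇ M) × ℝ} (hz : z ∈ XZ h p' t)
    (h1 : dist x.1 (z.1 0) ≤ r0) (h2 : |x.2 - z.2| < 3 / 4) :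
    phZ p' R ℓ c x t z ∈ PZ h p₀ p' (t + (R + ℓ + (R + ℓ))) := by
  have hs : ex z.2 = h (z.1 0) := hz.2.toHT.mem
  obtain ⟨h3, h4⟩ := T.lf_pF hx h1 hs h2
  exact ⟨cg_mem_P (g := fun _ : M => p'.1) (hgc _) T.tr.m_nonneg ht h3 hz.1,
    lf_cg T.tr.m_nonneg ht h3 hz.1 h4 hz.2⟩

/-- **`ψ` maps to the fibres.** -/
theorem psZ_mem (ht : 0 ≤ t) {x : M × ℝ} (hx : x ∈ A) {v : ℝ →ᵇ M} (hv : v ∈ PZ h p₀ p' t) :
    psZ p' R ℓ c x t v ∈ XZ h p' (t + (R + ℓ + (R + ℓ))) ∧ stz (psZ p' R ℓ c x t v) = x := by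
  have h0 : v 0 = p₀.1 := eq_left hv.1 le_rfl
  obtain ⟨h3, h4⟩ := T.lf_pG hx
  have h3' : Pt (R + ℓ) (v 0) x.1 (pG ℓ (c x)) := by rw [h0]; exact h3
  have h5 : v ∈ PF p'.1 t := H456.P_subset_PF hv.1
  refine mem_XZ_iff.2 ⟨⟨cg_mem_P (g := fun _ : M => p'.1) (hgc _) T.tr.m_nonneg ht h3' h5,
    lf_cg T.tr.m_nonneg ht h3' h5 h4 hv.2⟩, rfl⟩

end TrZ

end Vale.Agent.P216.H971Z
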