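import Vale.Agent.P216.H971Z.FibB

/-!
# P216-B7, Z10: the fibre step, `FibN`
-/

set_option linter.all false

open Set BoundedContinuousFunction

namespace Vale.Agent.P216.H971Z

open Vale.Agent.P216.Sl Vale.Agent.P216.PS Vale.Agent.P216.B7 Vale.Agent.P216.E2L
open Vale.Agent.P216.MV337 Vale.Agent.P216.H923E
open Vale.Agent.P216.C337 hiding ex
open Vale.Agent.P216.H456 (PF)
open Vale.Agent.P216.H456Z (HT dlt dlt_small ex_eq lift_eqOn sheet dlt_self)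
open Vale.Agent.P216.H892 (FibN FibC nbh CtgC UH.ctgC)

variable {M : Type} [MetricSpace M] {h : C(M, Circle)} [CompactSpace M]

/-- The graph of the height. -/
noncomputable def grh (h : C(M, Circle)) (β : ℝ) (w : ℝ →ᵇ M) : (ℝ →ᵇ M) × ℝ := (w, hgt h β w)

theorem lt_of_dist {x : M × ℝ} {z : (ℝ →ᵇ M) × ℝ} {δ : ℝ} (hd : dist x (stz z) < δ) :
    dist x.1 (z.1 0) < δ ∧ |x.2 - z.2| < δ := by
  rw [Prod.dist_eq, max_lt_iff] at hd
  exact ⟨hd.1, by rw [← Real.dist_eq]; exact hd.2⟩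

/-- The graph map on a sheet. -/
theorem um_grh {I : Type} {p' : M × ℝ} (hp : p' ∈ Xt h) {T r r₁ : ℝ} (x : I → M × ℝ) (D : I → Set M)
    (hD : ∀ i, ∀ a ∈ D i, dist (x i).1 a < r ∧ |dlt h (x i).1 a| < r) :
    UM (fun i => Sht h p' (x i) (D i) T) (fun i => nbh stz (XZ h p' T) (x i) r)
      fun _ => grh h p'.2 := by
  refine ⟨fun i w hw => ⟨⟨hw.1.1, exists_lf hp hw.1.1⟩, ?_⟩, fun ε hε => ?_⟩
  · show dist (x i) (w 0, hgt h p'.2 w) < r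
    rw [Prod.dist_eq, max_lt_iff]
    obtain ⟨h1, h2⟩ := hD i _ hw.1.2
    refine ⟨h1, ?_⟩
    show dist (x i).2 (hgt h p'.2 w) < r
    rw [hw.2, Real.dist_eq, show (x i).2 - ((x i).2 + dlt h (x i).1 (w 0)) =
      -dlt h (x i).1 (w 0) by ring, abs_neg]
    exact h2
  · obtain ⟨δ, hδ, H⟩ := hgt_close h hε
    refine ⟨min δ ε, lt_min hδ hε, fun i w hw w' hw' hd => ?_⟩
    show dist (w, hgt h p'.2 w) (w', hgt h p'.2 w') < ε
    rw [Prod.dist_eq, max_lt_iff]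
    refine ⟨hd.trans_le (min_le_right _ _), ?_⟩
    show dist (hgt h p'.2 w) (hgt h p'.2 w') < ε
    rw [Real.dist_eq]
    exact (H p'.1 p'.2 T T hp w hw.1.1 w' hw'.1.1 (hd.trans_le (min_le_left _ _))).2

/-- The first projection to a sheet. -/
theorem um_fst {I : Type} {p' : M × ℝ} (hp : p' ∈ Xt h) {T δ r₁ : ℝ} (x : I → M × ℝ)
    (hx : ∀ i, x i ∈ Xt h) (h1 : δ ≤ r₁) (h2 : δ ≤ 3 / 4)
    (hn : ∀ (i : I) (a : M), dist (x i).1 a < δ → dist (h (x i).1) (h a) < 1) :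
    UM (fun i => nbh stz (XZ h p' T) (x i) δ) (fun i => Sht h p' (x i) (NB (x i).1 r₁) T)
      fun _ => Prod.fst := by
  refine ⟨fun i z hz => ?_, fun ε hε => ⟨ε, hε, fun i z _ z' _ hd => ?_⟩⟩
  · obtain ⟨h3, h4⟩ := lt_of_dist hz.2
    have h5 := hz.1.2.toHT
    refine ⟨⟨hz.1.1, h3.le.trans h1⟩, ?_⟩
    rw [hgt_eq h5]
    exact sheet (hx i).symm h5.mem (hn i _ h3) (by rw [abs_sub_comm]; exact h4.trans_le h2)
  · rw [Prod.dist_eq, max_lt_iff] at hd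
    exact hd.1

namespace TrZ

variable {p₀ p' : M × ℝ} {A : Set (M × ℝ)} {ρ R ℓ₀ ℓ r0 t S : ℝ} {c : M × ℝ → ℝ → M}
  (T : TrZ h p₀ p' A ρ R ℓ₀ ℓ r0 c)
include T

theorem mem_XL_of_PZ {v : ℝ →ᵇ M} (hv : v ∈ PZ h p₀ p' t) :
    v ∈ XL (fun _ => p'.1) {p₀.1} t := mem_XL_of_P hv.1 rfl

/-- **The fibre step.** -/
theorem fibN (ht : 0 < t) (hS : t + (R + ℓ + (R + ℓ)) ≤ S) :
    FibN stz A (XZ h p' (S + (R + ℓ + (R + ℓ)))) (XZ h p' t) (PZ h p₀ p' S)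
      (PZ h p₀ p' (t + (R + ℓ + (R + ℓ)))) (fun x => phZ p' R ℓ c x t)
      (fun x => psZ p' R ℓ c x S) := by
  have hm := T.tr.m_nonneg
  have hS0 : 0 ≤ S := by linarith
  have hr0 := T.tr.hr0
  have hp := T.hp
  refine ⟨PZ_mono hS, fun x hx v hv => T.psZ_mem hS0 hx hv, fun r hr => ⟨r, hr, ?_⟩,
    fun r hr => ?_, fun r hr => ?_⟩
  · intro x hx v hv v' hv' hd
    show dist ((psI (fun _ => p'.1) R ℓ (c x) S v, x.2) : (ℝ →ᵇ M) × ℝ)
      (psI (fun _ => p'.1) R ℓ (c x) S v', x.2) < r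
    rw [Prod.dist_eq, max_lt_iff]
    refine ⟨(T.tr.psi_dist (hgc _) hS0 ⟨x, hx⟩ (T.mem_XL_of_PZ hv)
      (T.mem_XL_of_PZ hv')).trans_lt hd, ?_⟩
    show dist x.2 x.2 < r
    rw [dist_self]
    exact hr
  · obtain ⟨δ, hδ, H⟩ := (T.tr.g0 (g := fun _ => p'.1) (hgc _) ht.le).2 r hr
    refine ⟨min δ (min r0 (3 / 4)), lt_min hδ (lt_min hr0 (by norm_num)), fun x hx z hz => ?_⟩
    have k1 : ∀ z ∈ nbh stz (XZ h p' t) x (min δ (min r0 (3 / 4))),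
        dist x.1 (z.1 0) ≤ r0 ∧ |x.2 - z.2| < 3 / 4 := fun z hz => by
      obtain ⟨h3, h4⟩ := lt_of_dist hz.2
      exact ⟨h3.le.trans ((min_le_right _ _).trans (min_le_left _ _)),
        h4.trans_le ((min_le_right _ _).trans (min_le_right _ _))⟩
    refine ⟨T.phZ_mem ht.le hx hz.1 (k1 z hz).1 (k1 z hz).2, fun z' hz' hd => ?_⟩
    refine H ⟨x, hx⟩ z.1 ⟨hz.1.1, (k1 z hz).1⟩ z'.1 ⟨hz'.1.1, (k1 z' hz').1⟩ ?_
    rw [Prod.dist_eq, max_lt_iff] at hd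
    exact hd.1.trans_le (min_le_left _ _)
  · -- `id ~ ψ ∘ φ`
    obtain ⟨δ₂, hδ₂, hd2⟩ := dlt_small h (lt_min hr (by norm_num : (0:ℝ) < 1 / 4))
    obtain ⟨r₁, hr₁⟩ : ∃ r₁, r₁ = min (r / 2) (min δ₂ r0) := ⟨_, rfl⟩
    have hr1 : 0 < r₁ := hr₁ ▸ lt_min (half_pos hr) (lt_min hδ₂ hr0)
    have hr1r : r₁ ≤ r / 2 := hr₁ ▸ min_le_left _ _
    have hr1δ : r₁ ≤ δ₂ := hr₁ ▸ (min_le_right _ _).trans (min_le_left _ _)
    have hr10 : r₁ ≤ r0 := hr₁ ▸ (min_le_right _ _).trans (min_le_right _ _)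
    have hNB : ∀ (i : A), ∀ a ∈ NB i.1.1 r₁, dist (h i.1.1) (h a) < 1 := fun i a ha =>
      (hd2 _ _ ((show dist i.1.1 a ≤ r₁ from ha).trans hr1δ)).1
    -- the first homotopy
    have H2 := ((T.tr.g2 (g := fun _ => p'.1) (hgc _) ht.le).pb
      fun i : A => (⟨(i, r₁), hr1.le, hr10⟩ : {q : A × ℝ // 0 ≤ q.2 ∧ q.2 ≤ r0}))
    have H2' := UH.refine' H2 (Z' := fun i : A => Sht h p' i.1 (NB i.1.1 r₁) t)
      (Y' := fun i : A => Sht h p' i.1 (NB i.1.1 r₁)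
        (t + (R + ℓ + (R + ℓ)) + (R + ℓ + (R + ℓ)))) (fun i w hw => hw.1)
      (fun i => pcu_Sht hp (T.hA i.2) (hNB i)) fun i w hw => ⟨XL_mono le_rfl (by linarith) hw.1, hw.2⟩
    -- facts on the sheet
    have key : ∀ (i : A), ∀ w ∈ Sht h p' i.1 (NB i.1.1 r₁) t,
        phI (fun _ => p'.1) R ℓ i.1.1 (c i.1) t w ∈ PZ h p₀ p' (t + (R + ℓ + (R + ℓ))) := by
      intro i w hw
      have h1 : (w, hgt h p'.2 w) ∈ XZ h p' t := ⟨hw.1.1, exists_lf hp hw.1.1⟩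
      refine T.phZ_mem ht.le i.2 h1 (hr10.trans' hw.1.2) ?_
      show |i.1.2 - hgt h p'.2 w| < 3 / 4
      rw [hw.2, show i.1.2 - (i.1.2 + dlt h i.1.1 (w 0)) = -dlt h i.1.1 (w 0) by ring, abs_neg]
      exact ((hd2 _ _ ((show dist i.1.1 (w 0) ≤ r₁ from hw.1.2).trans hr1δ)).2.trans_le
        (min_le_right _ _)).trans (by norm_num)
    -- the second homotopy
    have H4 := T.tr.g4' (g := fun _ => p'.1) (hgc _) (s := t + (R + ℓ + (R + ℓ))) (t := S)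
      (by linarith) hS
    have Hφ : UM (fun i : A => Sht h p' i.1 (NB i.1.1 r₁) t)
        (fun _ => XL (fun _ => p'.1) {p₀.1} (t + (R + ℓ + (R + ℓ))))
        fun i => phI (fun _ => p'.1) R ℓ i.1.1 (c i.1) t :=
      (T.tr.g0 (g := fun _ => p'.1) (hgc _) ht.le).mono
        (fun i w hw => ⟨hw.1.1, hr10.trans' hw.1.2⟩) fun _ => le_rfl
    have H4' := UH.refine' (H4.comp_right Hφ) (Z' := fun i : A => Sht h p' i.1 (NB i.1.1 r₁) t)
      (Y' := fun i : A => Sht h p' i.1 {i.1.1} (S + (R + ℓ + (R + ℓ)))) (fun i w hw => hw)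
      (fun i => pcu_Sht hp (T.hA i.2) fun a ha => by
        rw [show a = i.1.1 from ha, dist_self]
        exact one_pos) fun i w hw => by
        have h1 := T.psZ_mem (t := t + (R + ℓ + (R + ℓ))) (by linarith) i.2 (key i w hw)
        have h2 : (psI (fun _ => p'.1) R ℓ (c i.1) (t + (R + ℓ + (R + ℓ)))
          (phI (fun _ => p'.1) R ℓ i.1.1 (c i.1) t w)) 0 = i.1.1 := congrArg Prod.fst h1.2
        refine ⟨⟨H456.PF_mono (by linarith) h1.1.1, h2⟩, ?_⟩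
        show hgt h p'.2 (psI (fun _ => p'.1) R ℓ (c i.1) (t + (R + ℓ + (R + ℓ)))
          (phI (fun _ => p'.1) R ℓ i.1.1 (c i.1) t w)) = i.1.2 + dlt h i.1.1
            ((psI (fun _ => p'.1) R ℓ (c i.1) (t + (R + ℓ + (R + ℓ)))
          (phI (fun _ => p'.1) R ℓ i.1.1 (c i.1) t w)) 0)
        rw [h2, dlt_self, add_zero]
        exact h1.1.2.hgt_eq
    have hmS : ∀ i : A, Sht h p' i.1 (NB i.1.1 r₁) (t + (R + ℓ + (R + ℓ)) + (R + ℓ + (R + ℓ))) ⊆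
        Sht h p' i.1 (NB i.1.1 r₁) (S + (R + ℓ + (R + ℓ))) := fun i w hw =>
      ⟨XL_mono le_rfl (by linarith) hw.1, hw.2⟩
    have hmS' : ∀ i : A, Sht h p' i.1 {i.1.1} (S + (R + ℓ + (R + ℓ))) ⊆
        Sht h p' i.1 (NB i.1.1 r₁) (S + (R + ℓ + (R + ℓ))) := fun i w hw =>
      ⟨⟨hw.1.1, by
        have : w 0 = i.1.1 := hw.1.2
        show dist i.1.1 (w 0) ≤ r₁
        rw [this, dist_self]
        exact hr1.le⟩, hw.2⟩
    have H := (H2'.mono (fun _ => le_rfl) hmS).trans (H4'.mono (fun _ => le_rfl) hmS')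
    -- the graph
    have hg1 := um_grh (I := A) hp (T := S + (R + ℓ + (R + ℓ))) (r := r) (r₁ := r₁)
      (fun i => i.1) (fun i => NB i.1.1 r₁) fun i a ha =>
        ⟨(show dist i.1.1 a ≤ r₁ from ha).trans_lt (by linarith),
          (hd2 _ _ ((show dist i.1.1 a ≤ r₁ from ha).trans hr1δ)).2.trans_le (min_le_left _ _)⟩
    have hδ0 : 0 < min r₁ (3 / 4) := lt_min hr1 (by norm_num)
    have hg2 := um_fst (I := A) hp (T := t) (δ := min r₁ (3 / 4)) (r₁ := r₁) (fun i => i.1)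
      (fun i => T.hA i.2) (min_le_left _ _) (min_le_right _ _) fun i a ha =>
        hNB i a (ha.le.trans (min_le_left _ _))
    have HH := ((H.comp_left hg1).comp_right hg2).congr (f' := fun _ => id)
      (g' := fun i z => psZ p' R ℓ c i.1 S (phZ p' R ℓ c i.1 t z))
      (fun i z hz => by
        show (z.1, hgt h p'.2 z.1) = z
        exact Prod.ext rfl hz.1.2.hgt_eq) fun i z hz => by
        have h0 := hg2.1 i hz
        have h1 := T.psZ_mem hS0 i.2 (PZ_mono hS (key i _ h0))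
        show (psI (fun _ => p'.1) R ℓ (c i.1) S (phI (fun _ => p'.1) R ℓ i.1.1 (c i.1) t z.1),
          hgt h p'.2 (psI (fun _ => p'.1) R ℓ (c i.1) S
            (phI (fun _ => p'.1) R ℓ i.1.1 (c i.1) t z.1))) = _
        exact Prod.ext rfl h1.1.2.hgt_eq
    obtain ⟨δ, hδ, HC⟩ := UH.ctgC HH r hr
    refine ⟨min δ (min r₁ (3 / 4)), lt_min hδ hδ0, fun x hx => ?_⟩
    exact CtgC.mono (HC ⟨x, hx⟩) subset_rfl (H892.nbh_mono (min_le_right _ _)) (min_le_left _ _)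
      le_rfl

end TrZ

end Vale.Agent.P216.H971Z
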