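import Vale.Agent.P216.H971Z.Frame

/-!
# P216-B7, Z10: the geometry of the fibre step with an index

`e i` is the base point, `c i` a path from `e i` to `x₀` of time `ℓ₀`, `i : I` arbitrary.
(`H923E/Geo`, `H923E/Geo2` with an index.)
-/

set_option linter.all false

open Set BoundedContinuousFunction

namespace Vale.Agent.P216.H971Z

open Vale.Agent.P216.PS Vale.Agent.P216.MV337 Vale.Agent.P216.C337 Vale.Agent.P216.H923E

variable {M : Type} [MetricSpace M] {I : Type}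

/-- The tracks: `c i` is a path from `e i` to `x₀` of time `ℓ₀`. -/
structure TrI (e : I → M) (x₀ : M) (ρ R ℓ₀ ℓ r0 : ℝ) (c : I → ℝ → M) : Prop where
  hU : LS.UniqSeg M ρ
  hR : 0 < R
  hRρ : R < ρ
  hr0 : 0 < r0
  hrR : 2 * r0 ≤ R
  hℓ₀ : 0 ≤ ℓ₀
  hℓ : R + ℓ₀ ≤ ℓ
  hc : ∀ i, Pt ℓ₀ (e i) x₀ (c i)

/-- the path of `φ` -/
noncomputable def pF (R : ℝ) (x : M) (c : ℝ → M) (a : M) : ℝ → M := catf R (sg R a x) c

/-- the path of `ψ` -/
def pG (ℓ : ℝ) (c : ℝ → M) (u : ℝ) : M := c (ℓ - u)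

variable [CompactSpace M]

/-- conjugation to `x₀` of the paths which start near `x` -/
noncomputable def phI (g : M → M) (R ℓ : ℝ) (x : M) (c : ℝ → M) (t : ℝ) (w : ℝ →ᵇ M) :
    ℝ →ᵇ M := cg g (R + ℓ) t (pF R x c (w 0)) w

/-- conjugation back to `x` -/
noncomputable def psI (g : M → M) (R ℓ : ℝ) (c : ℝ → M) (t : ℝ) (v : ℝ →ᵇ M) :
    ℝ →ᵇ M := cg g (R + ℓ) t (pG ℓ c) v

/-- the paths of the last homotopy of (G2) -/
noncomputable def kI (R ℓ : ℝ) (x : M) (c : ℝ → M) (σ : ℝ) (a : M) : ℝ → M :=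
  catf R (sg R a x) fun v => c (ℓ - max (ℓ - σ * ℓ) |v - ℓ|)

variable {ρ R : ℝ} {e : I → M} {g : M → M} {x₀ : M} {ℓ₀ ℓ r0 t s : ℝ} {c : I → ℝ → M}

namespace TrI

variable (T : TrI e x₀ ρ R ℓ₀ ℓ r0 c)
include T

theorem ℓ_nonneg : 0 ≤ ℓ := by
  linarith [T.hR, T.hℓ₀, T.hℓ]

theorem m_nonneg : 0 ≤ R + ℓ := by linarith [T.hR, T.ℓ_nonneg]

theorem hℓ₀ℓ : ℓ₀ ≤ ℓ := by linarith [T.hR, T.hℓ₀, T.hℓ]

theorem cpt (i : I) : Pt ℓ (e i) x₀ (c i) := (T.hc i).le T.hℓ₀ℓ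

theorem sgp {r : ℝ} (hr : r ≤ r0) {a x : M} (h : a ∈ NB x r) : Pt R a x (sg R a x) := by
  have h1 : dist x a ≤ r := h
  rw [dist_comm] at h1
  exact sg_pt T.hU T.hR (by linarith [T.hrR, T.hRρ, T.hr0]) (by linarith [T.hrR, T.hr0])

theorem pφ_pt {r : ℝ} (hr : r ≤ r0) {a : M} {i : I} (h : a ∈ NB (e i) r) :
    Pt (R + ℓ) a x₀ (pF R (e i) (c i) a) := (T.sgp hr h).cat (T.cpt i) T.hR.le T.ℓ_nonneg

theorem pψ_pt (i : I) : Pt (R + ℓ) x₀ (e i) (pG ℓ (c i)) :=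
  (T.cpt i).rev.le (by linarith [T.hR])

theorem pφ_unif {ε : ℝ} (hε : 0 < ε) : ∃ δ > 0, ∀ (i : I), ∀ a ∈ NB (e i) r0, ∀ a' ∈ NB (e i) r0,
    dist a a' < δ → ∀ u, dist (pF R (e i) (c i) a u) (pF R (e i) (c i) a' u) ≤ ε := by
  obtain ⟨δ, hδ, h⟩ := sg_unif (R := R) T.hU T.hRρ hε
  refine ⟨δ, hδ, fun i a ha a' ha' hd u => dist_catf_le (fun u => ?_) (fun u => ?_) u⟩
  · have h1 : dist (e i) a ≤ r0 := ha
    have h2 : dist (e i) a' ≤ r0 := ha'
    rw [dist_comm] at h1 h2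
    exact h a a' (e i) (e i) u (by linarith [T.hrR, T.hr0]) (by linarith [T.hrR, T.hr0]) hd.le
      (by rw [dist_self]; exact hδ.le)
  · rw [dist_self]
    exact hε.le

/-- **(G0)** -/
theorem g0 (hg : ∀ x y, dist (g x) (g y) ≤ dist x y) (ht : 0 ≤ t) :
    UM (fun i => XL g (NB (e i) r0) t) (fun _ => XL g {x₀} (t + (R + ℓ + (R + ℓ))))
      (fun i => phI g R ℓ (e i) (c i) t) :=
  um_conj (D := fun i => NB (e i) r0) (V := fun _ => {x₀}) hg T.m_nonneg ht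
    (fun i a => pF R (e i) (c i) a)
    (fun i a ha => ⟨x₀, rfl, T.pφ_pt le_rfl ha⟩) fun ε hε => T.pφ_unif hε

theorem psi_mem (hg : ∀ x y, dist (g x) (g y) ≤ dist x y) (ht : 0 ≤ t) (i : I) :
    MapsTo (psI g R ℓ (c i) t) (XL g {x₀} t) (XL g {e i} (t + (R + ℓ + (R + ℓ)))) := fun v hv => by
  have h : v 0 = x₀ := hv.2
  exact cg_mem (z := e i) hg T.m_nonneg ht (by rw [h]; exact T.pψ_pt i) rfl hv.1

theorem psi_dist (hg : ∀ x y, dist (g x) (g y) ≤ dist x y) (ht : 0 ≤ t) (i : I) {v v' : ℝ →ᵇ M}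
    (hv : v ∈ XL g {x₀} t) (hv' : v' ∈ XL g {x₀} t) :
    dist (psI g R ℓ (c i) t v) (psI g R ℓ (c i) t v') ≤ dist v v' := by
  have h : v 0 = x₀ := hv.2
  have h' : v' 0 = x₀ := hv'.2
  exact dist_cg_le (z := e i) (z' := e i) hg ht dist_nonneg (by rw [h]; exact T.pψ_pt i)
    (by rw [h']; exact T.pψ_pt i) hv.1 hv'.1 (fun u => by rw [dist_self]; exact dist_nonneg) le_rfl

theorem umψ (hg : ∀ x y, dist (g x) (g y) ≤ dist x y) (ht : 0 ≤ t) :
    UM (fun _ : I => XL g {x₀} t) (fun i => XL g {e i} (t + (R + ℓ + (R + ℓ))))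
      (fun i => psI g R ℓ (c i) t) :=
  ⟨fun i => T.psi_mem hg ht i, fun ε hε => ⟨ε, hε, fun i v hv v' hv' hd =>
    (T.psi_dist hg ht i hv hv').trans_lt hd⟩⟩

/-- **(G1)** -/
theorem g1 (hg : ∀ x y, dist (g x) (g y) ≤ dist x y) (ht : 0 ≤ t) :
    UH (fun _ : I => XL g {x₀} t)
      (fun _ => XL g {x₀} (t + (R + ℓ + (R + ℓ)) + (R + ℓ + (R + ℓ)))) (fun _ => id)
      (fun i => phI g R ℓ (e i) (c i) (t + (R + ℓ + (R + ℓ))) ∘ psI g R ℓ (c i) t) := by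
  have hm := T.m_nonneg
  have hℓ := T.ℓ_nonneg
  have hR := T.hR
  have hm2 : 0 ≤ R + ℓ + (R + ℓ) := by linarith
  -- the time shift
  have H1 := uh_shift (D := fun _ : I => {x₀}) hg hm2 ht
  -- the excursions
  have H2 := uh_conj (D := fun _ : I => {x₀}) (V := fun _ => {x₀}) hg hm2 ht
    (fun x σ _ u => c x (ℓ - min (σ * (R + ℓ)) (min u (2 * (R + ℓ) - u))))
    (fun x σ hσ a ha => ⟨x₀, rfl, ?_, ?_, ?_⟩)
    (fun ε hε => ⟨1, one_pos, fun x σ hσ a _ a' _ _ u => by rw [dist_self]; exact hε.le⟩)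
    (fun x ε hε => ⟨ε / (R + ℓ + 1), by positivity, fun σ hσ σ' hσ' hd a _ u => ?_⟩)
  · have e' : t + (R + ℓ + (R + ℓ)) + (R + ℓ + (R + ℓ)) =
        t + ((R + ℓ + (R + ℓ)) + (R + ℓ + (R + ℓ))) := by ring
    rw [e']
    refine (H1.trans (H2.congr (fun x v hv => ?_) fun _ _ _ => rfl)).congr
      (fun _ _ _ => rfl) fun x v hv => ?_
    · have h0 : v 0 = x₀ := hv.2
      show cg g _ t (fun u => c x (ℓ - min (0 * (R + ℓ)) (min u (2 * (R + ℓ) - u)))) v = _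
      congr 1
      funext u
      rw [h0, zero_mul]
      exact (T.hc x).2.2 _ (by linarith [min_le_left (0:ℝ) (min u (2 * (R + ℓ) - u)), T.hℓ₀ℓ])
    · have h0 : v 0 = x₀ := hv.2
      have hs : psI g R ℓ (c x) t v 0 = e x := (T.psi_mem hg ht x hv).2
      show cg g _ t (fun u => c x (ℓ - min (1 * (R + ℓ)) (min u (2 * (R + ℓ) - u)))) v = _
      show _ = cg g (R + ℓ) (t + (R + ℓ + (R + ℓ))) (pF R (e x) (c x) (psI g R ℓ (c x) t v 0))
        (cg g (R + ℓ) t (pG ℓ (c x)) v)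
      rw [hs, cg_cg (z := e x) (z' := x₀) hg hm hm ht (by rw [h0]; exact T.pψ_pt x)
        (T.pφ_pt (r := r0) le_rfl (by
          show dist (e x) (e x) ≤ r0; rw [dist_self]; exact T.hr0.le)) hv.1]
      congr 1
      funext u
      rw [one_mul]
      have e1 : min (R + ℓ) (min u (2 * (R + ℓ) - u)) = min u (2 * (R + ℓ) - u) := by
        refine min_eq_right ?_
        rcases le_total u (R + ℓ) with h | h
        · exact (min_le_left _ _).trans h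
        · exact (min_le_right _ _).trans (by linarith)
      rw [e1]
      rcases le_total u (R + ℓ) with h | h
      · rw [catf_left h, min_eq_left (by linarith)]
        rfl
      · have ep : pG ℓ (c x) (R + ℓ) = pF R (e x) (c x) (e x) 0 := by
          rw [(T.pψ_pt x).2.2 _ le_rfl, (T.pφ_pt (r := r0) le_rfl (by
            show dist (e x) (e x) ≤ r0; rw [dist_self]; exact T.hr0.le)).zero]
        rw [catf_right ep h, min_eq_right (by linarith)]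
        have e2 : ℓ - (2 * (R + ℓ) - u) = u - (R + ℓ) - R := by ring
        rw [e2]
        unfold pF
        rw [sg_self]
        rcases le_total (u - (R + ℓ)) R with h' | h'
        · rw [catf_left h', (T.hc x).2.1 _ (by linarith)]
        · rw [catf_right (T.hc x).zero.symm h']
  · refine (T.hc x).1.comp fun u v => ?_
    rw [show ℓ - min (σ * (R + ℓ)) (min u (2 * (R + ℓ) - u)) -
      (ℓ - min (σ * (R + ℓ)) (min v (2 * (R + ℓ) - v))) =
      -(min (σ * (R + ℓ)) (min u (2 * (R + ℓ) - u)) -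
        min (σ * (R + ℓ)) (min v (2 * (R + ℓ) - v))) by ring, abs_neg]
    refine (abs_min_sub_min_le_max _ _ _ _).trans (max_le (by simp) ?_)
    refine (abs_min_sub_min_le_max _ _ _ _).trans (max_le le_rfl ?_)
    rw [show 2 * (R + ℓ) - u - (2 * (R + ℓ) - v) = -(u - v) by ring, abs_neg]
  · intro u hu
    have ha' : a = x₀ := ha
    rw [ha']
    refine (T.hc x).2.2 _ ?_
    have := (min_le_right (σ * (R + ℓ)) (min u (2 * (R + ℓ) - u))).trans (min_le_left _ _)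
    linarith [T.hℓ₀ℓ]
  · intro u hu
    refine (T.hc x).2.2 _ ?_
    have := (min_le_right (σ * (R + ℓ)) (min u (2 * (R + ℓ) - u))).trans (min_le_right _ _)
    linarith [T.hℓ₀ℓ]
  · refine ((T.hc x).1 _ _).trans ?_
    rw [show ℓ - min (σ * (R + ℓ)) (min u (2 * (R + ℓ) - u)) -
      (ℓ - min (σ' * (R + ℓ)) (min u (2 * (R + ℓ) - u))) =
      -(min (σ * (R + ℓ)) (min u (2 * (R + ℓ) - u)) -
        min (σ' * (R + ℓ)) (min u (2 * (R + ℓ) - u))) by ring, abs_neg]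
    refine (abs_min_sub_min_le_max _ _ _ _).trans (max_le ?_ (by rw [sub_self, abs_zero]; exact hε.le))
    rw [← sub_mul, abs_mul, abs_of_nonneg hm]
    refine (mul_le_mul_of_nonneg_right hd.le hm).trans ?_
    rw [div_mul_eq_mul_div, div_le_iff₀ (by linarith)]
    nlinarith

theorem kC_pt {r : ℝ} (hr : r ≤ r0) {σ : ℝ} (hσ : σ ∈ Icc (0:ℝ) 1) {a : M} {x : I}
    (h : a ∈ NB (e x) r) : Pt (R + ℓ + (R + ℓ)) a (e x) (kI R ℓ (e x) (c x) σ a) := by
  have hℓ := T.ℓ_nonneg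
  have hR := T.hR
  have h1 : Pt (ℓ + ℓ) (e x) (e x) fun v => c x (ℓ - max (ℓ - σ * ℓ) |v - ℓ|) := by
    refine ⟨(T.hc x).1.comp fun u v => Tr0.abs_kC ℓ σ u v, fun u hu => (T.hc x).2.1 _ ?_,
      fun u hu => (T.hc x).2.1 _ ?_⟩
    · have h2 := le_max_right (ℓ - σ * ℓ) |u - ℓ|
      rw [abs_of_nonpos (by linarith : u - ℓ ≤ 0)] at h2 ⊢
      linarith
    · have h2 := le_max_right (ℓ - σ * ℓ) |u - ℓ|
      rw [abs_of_nonneg (by linarith : 0 ≤ u - ℓ)] at h2 ⊢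
      linarith
  exact ((T.sgp hr h).cat h1 hR.le (by linarith)).le (by linarith)

/-- **(G2)** -/
theorem g2 (hg : ∀ x y, dist (g x) (g y) ≤ dist x y) (ht : 0 ≤ t) :
    UH (I := {q : I × ℝ // 0 ≤ q.2 ∧ q.2 ≤ r0}) (fun q => XL g (NB (e q.1.1) q.1.2) t)
      (fun q => XL g (NB (e q.1.1) q.1.2) (t + (R + ℓ + (R + ℓ)) + (R + ℓ + (R + ℓ)))) (fun _ => id)
      (fun q => psI g R ℓ (c q.1.1) (t + (R + ℓ + (R + ℓ))) ∘ phI g R ℓ (e q.1.1) (c q.1.1) t) := by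
  have hm := T.m_nonneg
  have hℓ := T.ℓ_nonneg
  have hR := T.hR
  have hr0 := T.hr0
  have hrR := T.hrR
  have hRρ := T.hRρ
  have hm2 : 0 ≤ R + ℓ + (R + ℓ) := by linarith
  have hnear : ∀ (q : {q : I × ℝ // 0 ≤ q.2 ∧ q.2 ≤ r0}) (a : M), a ∈ NB (e q.1.1) q.1.2 →
      dist a (e q.1.1) ≤ r0 := fun q a ha => by
    have h : dist (e q.1.1) a ≤ q.1.2 := ha
    rw [dist_comm] at h
    exact h.trans q.2.2
  -- the time shift
  have H1 := uh_shift (D := fun q : {q : I × ℝ // 0 ≤ q.2 ∧ q.2 ≤ r0} => NB (e q.1.1) q.1.2) hg hm2 ht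
  -- along the segment
  have H2 := uh_conj (D := fun q : {q : I × ℝ // 0 ≤ q.2 ∧ q.2 ≤ r0} => NB (e q.1.1) q.1.2)
    (V := fun q => NB (e q.1.1) q.1.2) hg hm2 ht
    (fun q σ a u => sg R a (e q.1.1) (min u (σ * R)))
    (fun q σ hσ a ha => ⟨sg R a (e q.1.1) (σ * R), ?_, ?_, ?_, ?_⟩)
    (fun ε hε => ?_)
    (fun q ε hε => ⟨ε / R, by positivity, fun σ hσ σ' hσ' hd a ha u => ?_⟩)
  rotate_left
  · show dist (e q.1.1) (LS.seg a (e q.1.1) (cl1 (σ * R / R))) ≤ q.1.2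
    rw [dist_comm, LS.dist_seg_right T.hU (by linarith [hnear q a ha]) (cl1_mem _)]
    have h : dist (e q.1.1) a ≤ q.1.2 := ha
    rw [dist_comm] at h
    refine le_trans ?_ h
    exact mul_le_of_le_one_left dist_nonneg (by linarith [(cl1_mem (σ * R / R)).1])
  · refine (T.sgp q.2.2 ha).1.comp fun u v => ?_
    exact (abs_min_sub_min_le_max _ _ _ _).trans (max_le le_rfl (by simp))
  · exact fun u hu => (T.sgp q.2.2 ha).2.1 _ ((min_le_left _ _).trans hu)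
  · intro u hu
    show sg R a (e q.1.1) (min u (σ * R)) = _
    rw [min_eq_right]
    have : σ * R ≤ R := mul_le_of_le_one_left hR.le hσ.2
    linarith
  · obtain ⟨δ, hδ, h⟩ := sg_unif (R := R) T.hU hRρ hε
    refine ⟨δ, hδ, fun q σ hσ a ha a' ha' hd u => h a a' _ _ _ (by linarith [hnear q a ha])
      (by linarith [hnear q a' ha']) hd.le (by rw [dist_self]; exact hδ.le)⟩
  · refine ((T.sgp q.2.2 ha).1 _ _).trans ?_
    refine (abs_min_sub_min_le_max _ _ _ _).trans (max_le (by rw [sub_self, abs_zero]; exact hε.le) ?_)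
    rw [← sub_mul, abs_mul, abs_of_pos hR]
    exact (mul_le_mul_of_nonneg_right hd.le hR.le).trans_eq (div_mul_cancel₀ _ hR.ne')
  -- along the track
  have H3 := uh_conj (D := fun q : {q : I × ℝ // 0 ≤ q.2 ∧ q.2 ≤ r0} => NB (e q.1.1) q.1.2)
    (V := fun q => {e q.1.1}) hg hm2 ht
    (fun q σ a => kI R ℓ (e q.1.1) (c q.1.1) σ a)
    (fun q σ hσ a ha => ⟨e q.1.1, rfl, T.kC_pt q.2.2 hσ ha⟩)
    (fun ε hε => ?_)
    (fun q ε hε => ⟨ε / (ℓ + 1), by positivity, fun σ hσ σ' hσ' hd a ha u => ?_⟩)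
  rotate_left
  · obtain ⟨δ, hδ, h⟩ := sg_unif (R := R) T.hU hRρ hε
    refine ⟨δ, hδ, fun q σ hσ a ha a' ha' hd u => dist_catf_le (fun u => h a a' _ _ _
      (by linarith [hnear q a ha]) (by linarith [hnear q a' ha']) hd.le
      (by rw [dist_self]; exact hδ.le)) (fun u => by rw [dist_self]; exact hε.le) u⟩
  · refine dist_catf_le (fun u => by rw [dist_self]; exact hε.le) (fun v => ?_) u
    refine ((T.hc q.1.1).1 _ _).trans ?_
    rw [show ℓ - max (ℓ - σ * ℓ) |v - ℓ| - (ℓ - max (ℓ - σ' * ℓ) |v - ℓ|) =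
      -(max (ℓ - σ * ℓ) |v - ℓ| - max (ℓ - σ' * ℓ) |v - ℓ|) by ring, abs_neg]
    refine (abs_max_sub_max_le_max _ _ _ _).trans
      (max_le ?_ (by rw [sub_self, abs_zero]; exact hε.le))
    rw [show ℓ - σ * ℓ - (ℓ - σ' * ℓ) = -((σ - σ') * ℓ) by ring, abs_neg, abs_mul,
      abs_of_nonneg hℓ]
    refine (mul_le_mul_of_nonneg_right hd.le hℓ).trans ?_
    rw [div_mul_eq_mul_div, div_le_iff₀ (by linarith)]
    nlinarith
  have e' : t + (R + ℓ + (R + ℓ)) + (R + ℓ + (R + ℓ)) =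
      t + ((R + ℓ + (R + ℓ)) + (R + ℓ + (R + ℓ))) := by ring
  rw [e']
  refine (H1.trans ((H2.congr (fun q w hw => ?_) fun q w hw => ?_).trans
    ((H3.mono (fun _ => le_rfl) fun q => ?_).congr (f' := fun q w => cg g (R + ℓ + (R + ℓ)) t
      (sg R (w 0) (e q.1.1)) w) (fun q w hw => ?_) fun _ _ _ => rfl))).congr
      (fun _ _ _ => rfl) fun q w hw => ?_
  · show cg g _ t (fun u => sg R (w 0) (e q.1.1) (min u (0 * R))) w = _
    congr 1
    funext u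
    rw [zero_mul]
    exact (T.sgp q.2.2 hw.2).2.1 _ (min_le_right _ _)
  · show cg g _ t (fun u => sg R (w 0) (e q.1.1) (min u (1 * R))) w = _
    congr 1
    funext u
    rw [one_mul]
    rcases le_total u R with h | h
    · rw [min_eq_left h]
    · rw [min_eq_right h, (T.sgp q.2.2 hw.2).2.2 _ le_rfl, (T.sgp q.2.2 hw.2).2.2 _ h]
  · rintro w ⟨h1, h2⟩
    have h2' : w 0 = e q.1.1 := h2
    refine ⟨h1, ?_⟩
    show dist (e q.1.1) (w 0) ≤ q.1.2
    rw [h2', dist_self]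
    exact q.2.1
  · show cg g _ t (kI R ℓ (e q.1.1) (c q.1.1) 0 (w 0)) w = _
    congr 1
    funext u
    unfold kI
    rcases le_total u R with h | h
    · rw [catf_left h]
    · have hx : ∀ v : ℝ, c q.1.1 (ℓ - max (ℓ - 0 * ℓ) |v - ℓ|) = e q.1.1 := fun v =>
        (T.hc q.1.1).2.1 _ (by
          have := le_max_left (ℓ - 0 * ℓ) |v - ℓ|
          linarith)
      rw [catf_right ?_ h, hx, (T.sgp q.2.2 hw.2).2.2 _ h]
      rw [hx, (T.sgp q.2.2 hw.2).2.2 _ le_rfl]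
  · show cg g _ t (kI R ℓ (e q.1.1) (c q.1.1) 1 (w 0)) w = cg g (R + ℓ) (t + (R + ℓ + (R + ℓ)))
      (pG ℓ (c q.1.1)) (cg g (R + ℓ) t (pF R (e q.1.1) (c q.1.1) (w 0)) w)
    rw [cg_cg (z := x₀) (z' := e q.1.1) hg hm hm ht (T.pφ_pt q.2.2 hw.2) (T.pψ_pt q.1.1) hw.1]
    congr 1
    funext u
    have e0 : sg R (w 0) (e q.1.1) R = c q.1.1 0 := by
      rw [(T.sgp q.2.2 hw.2).2.2 _ le_rfl, (T.hc _).zero]
    have ez : ∀ v, c q.1.1 (ℓ - max (ℓ - 1 * ℓ) |v - ℓ|) = c q.1.1 (ℓ - |v - ℓ|) := fun v => by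
      rw [one_mul, sub_self, max_eq_right (abs_nonneg _)]
    have e1 : sg R (w 0) (e q.1.1) R = c q.1.1 (ℓ - max (ℓ - 1 * ℓ) |0 - ℓ|) := by
      rw [e0, ez, zero_sub, abs_neg, abs_of_nonneg hℓ, sub_self]
    have e2 : pF R (e q.1.1) (c q.1.1) (w 0) (R + ℓ) = pG ℓ (c q.1.1) 0 := by
      rw [(T.pφ_pt q.2.2 hw.2).2.2 _ le_rfl, (T.pψ_pt q.1.1).zero]
    show catf R (sg R (w 0) (e q.1.1)) (fun v => c q.1.1 (ℓ - max (ℓ - 1 * ℓ) |v - ℓ|)) u = _
    rcases le_total u R with h | h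
    · rw [catf_left h, catf_left (by linarith)]
      unfold pF
      rw [catf_left h]
    · rw [catf_right e1 h, ez]
      rcases le_total u (R + ℓ) with h' | h'
      · rw [catf_left h']
        unfold pF
        rw [catf_right e0 h, abs_of_nonpos (by linarith)]
        congr 1
        ring
      · rw [catf_right e2 h', abs_of_nonneg (by linarith)]
        show _ = c q.1.1 (ℓ - (u - (R + ℓ)))
        congr 1
        ring

end TrI

end Vale.Agent.P216.H971Z
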