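import Vale.Agent.P216.H971Z.GeoI

/-!
# P216-B7, Z10: the geometry of the fibre step with an index, II

(G3): `φ i ~ φ j` on the paths which start near `e i` and near `e j`; (G4): change of the level.
-/

set_option linter.all false

open Set BoundedContinuousFunction

namespace Vale.Agent.P216.H971Z

open Vale.Agent.P216.PS Vale.Agent.P216.MV337 Vale.Agent.P216.C337 Vale.Agent.P216.H923E

variable {M : Type} [MetricSpace M] {I : Type} [CompactSpace M]
  {ρ R : ℝ} {e : I → M} {g : M → M} {x₀ : M} {ℓ₀ ℓ r0 t s : ℝ} {c : I → ℝ → M}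

namespace TrI

variable (T : TrI e x₀ ρ R ℓ₀ ℓ r0 c)
include T

/-- The path from `φ i` to `φ j`, behind `e j`. -/
theorem exists_gamma {i j : I} (h : dist (e i) (e j) ≤ 2 * r0)
    (hj : JoinedIn (P (e j) x₀ ℓ) (mo (catf R (sg R (e j) (e i)) (c i))) (mo (c j))) :
    ∃ γ : ℝ → ℝ →ᵇ M, Continuous γ ∧
    (γ 0 : ℝ → M) = catf R (sg R (e j) (e i)) (c i) ∧ (γ 1 : ℝ → M) = c j ∧
      ∀ σ ∈ Icc (0:ℝ) 1, Pt ℓ (e j) x₀ (γ σ) := by
  have hR := T.hR
  have h1 : Pt (R + ℓ₀) (e j) x₀ (catf R (sg R (e j) (e i)) (c i)) :=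
    (sg_pt T.hU T.hR (by rw [dist_comm]; linarith [T.hrR, T.hRρ])
      (by rw [dist_comm]; linarith [T.hrR])).cat (T.hc i) T.hR.le T.hℓ₀
  have h2 : Pt (R + ℓ₀) (e j) x₀ (c j) := (T.hc j).le (by linarith)
  refine ⟨hj.somePath.extend, hj.somePath.continuous_extend, ?_, ?_, fun σ hσ => ?_⟩
  · rw [hj.somePath.extend_zero]
    funext u
    exact h1.1.mo_apply u
  · rw [hj.somePath.extend_one]
    funext u
    exact h2.1.mo_apply u
  · exact Pt.of_P (hj.somePath_mem (projIcc 0 1 zero_le_one σ))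

/-- **(G3)** -/
theorem g3 {J : Type} (α β : J → I) (hd : ∀ j, dist (e (α j)) (e (β j)) ≤ 2 * r0)
    (hj : ∀ j, JoinedIn (P (e (β j)) x₀ ℓ) (mo (catf R (sg R (e (β j)) (e (α j))) (c (α j))))
      (mo (c (β j))))
    (hg : ∀ x y, dist (g x) (g y) ≤ dist x y) (ht : 0 ≤ t) :
    UH (fun j : J => XL g (NB (e (α j)) r0 ∩ NB (e (β j)) r0) t)
      (fun _ => XL g {x₀} (t + (R + ℓ + (R + ℓ))))
      (fun j => phI g R ℓ (e (α j)) (c (α j)) t)
      fun j => phI g R ℓ (e (β j)) (c (β j)) t := by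
  have hm := T.m_nonneg
  have hℓ := T.ℓ_nonneg
  have hR := T.hR
  have hr0 := T.hr0
  have hrR := T.hrR
  have hRρ := T.hRρ
  have hℓ₀ := T.hℓ₀
  have hℓ1 : R + ℓ₀ ≤ ℓ := T.hℓ
  have hd1 : ∀ (i : J) (a : M),
      a ∈ NB (e (α i)) r0 ∩ NB (e (β i)) r0 → dist a (e (α i)) ≤ r0 ∧ dist a (e (β i)) ≤ r0 :=
      fun i a ha => by
    have h2 : dist (e (α i)) a ≤ r0 := ha.1
    have h3 : dist (e (β i)) a ≤ r0 := ha.2
    rw [dist_comm] at h2 h3
    exact ⟨h2, h3⟩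
  -- the waiting time
  have HA := uh_conj (m := R + ℓ)
    (D := fun i : J => NB (e (α i)) r0 ∩ NB (e (β i)) r0)
    (V := fun _ => {x₀}) hg hm ht
    (fun i σ a u => catf R (sg R a (e (α i))) (c (α i)) (u - σ * R))
    (fun i σ hσ a ha => ⟨x₀, rfl, ?_, ?_, ?_⟩)
    (fun ε hε => ?_)
    (fun i ε hε => ⟨ε / R, by positivity, fun σ hσ σ' hσ' hd a ha u => ?_⟩)
  rotate_left
  · exact ((T.sgp le_rfl ha.1).cat (T.hc _) hR.le hℓ₀).1.comp fun u v => by
      rw [show u - σ * R - (v - σ * R) = u - v by ring]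
  · intro u hu
    have := mul_nonneg hσ.1 hR.le
    exact ((T.sgp le_rfl ha.1).cat (T.hc _) hR.le hℓ₀).2.1 _ (by linarith)
  · intro u hu
    have := mul_le_of_le_one_left hR.le hσ.2
    exact ((T.sgp le_rfl ha.1).cat (T.hc _) hR.le hℓ₀).2.2 _ (by linarith)
  · obtain ⟨δ, hδ, h⟩ := T.pφ_unif hε
    exact ⟨δ, hδ, fun i σ _ a ha a' ha' hd u => h (α i) a ha.1 a' ha'.1 hd _⟩
  · refine (((T.sgp le_rfl ha.1).cat (T.hc _) hR.le hℓ₀).1 _ _).trans ?_
    rw [show u - σ * R - (u - σ' * R) = -((σ - σ') * R) by ring, abs_neg, abs_mul, abs_of_pos hR]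
    exact (mul_le_mul_of_nonneg_right hd.le hR.le).trans_eq (div_mul_cancel₀ _ hR.ne')
  -- along the segment to `y`
  have hz : ∀ (i : J), ∀ σ ∈ Icc (0:ℝ) 1,
      ∀ a ∈ NB (e (α i)) r0 ∩ NB (e (β i)) r0, dist a (LS.seg a (e (β i)) σ) ≤ r0 ∧
        dist (LS.seg a (e (β i)) σ) (e (α i)) ≤ 2 * r0 := fun i σ hσ a ha => by
    obtain ⟨h2, h3⟩ := hd1 i a ha
    have h4 : dist a (LS.seg a (e (β i)) σ) ≤ r0 := by
      rw [LS.dist_left_seg T.hU (by linarith) hσ]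
      exact (mul_le_of_le_one_left dist_nonneg hσ.2).trans h3
    refine ⟨h4, ?_⟩
    linarith [dist_triangle (LS.seg a (e (β i)) σ) a (e (α i)),
      dist_comm a (LS.seg a (e (β i)) σ)]
  have hzs : ∀ (i : J), ∀ σ ∈ Icc (0:ℝ) 1,
      ∀ a ∈ NB (e (α i)) r0 ∩ NB (e (β i)) r0,
        Pt R a (LS.seg a (e (β i)) σ) (sg R a (LS.seg a (e (β i)) σ)) ∧
        Pt (R + ℓ₀) (LS.seg a (e (β i)) σ) x₀
          (catf R (sg R (LS.seg a (e (β i)) σ) (e (α i))) (c (α i))) := fun i σ hσ a ha => by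
    obtain ⟨h2, h3⟩ := hz i σ hσ a ha
    exact ⟨sg_pt T.hU hR (by linarith) (by linarith),
      (sg_pt T.hU hR (by linarith) (by linarith)).cat (T.hc _) hR.le hℓ₀⟩
  have HB := uh_conj (m := R + ℓ)
    (D := fun i : J => NB (e (α i)) r0 ∩ NB (e (β i)) r0)
    (V := fun _ => {x₀}) hg hm ht
    (fun i σ a => catf R (sg R a (LS.seg a (e (β i)) σ))
      (catf R (sg R (LS.seg a (e (β i)) σ) (e (α i))) (c (α i))))
    (fun i σ hσ a ha => ⟨x₀, rfl, ?_⟩)
    (fun ε hε => ?_)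
    (fun i ε hε => ?_)
  rotate_left
  · exact ((hzs i σ hσ a ha).1.cat (hzs i σ hσ a ha).2 hR.le (by linarith)).le (by linarith)
  · obtain ⟨δ, hδ, h⟩ := sg_unif (R := R) T.hU hRρ hε
    obtain ⟨δ', hδ', h'⟩ := LS.unifCont_seg T.hU hRρ hδ
    refine ⟨min δ δ', lt_min hδ hδ', fun i σ hσ a ha a' ha' hd => ?_⟩
    have e1 : dist a a' ≤ δ := hd.le.trans (min_le_left _ _)
    have e2 : dist a a' ≤ δ' := hd.le.trans (min_le_right _ _)
    have e3 : dist (LS.seg a (e (β i)) σ) (LS.seg a' (e (β i)) σ) ≤ δ :=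
      h' a a' _ _ σ σ (by linarith [(hd1 i a ha).2]) (by linarith [(hd1 i a' ha').2]) hσ hσ e2
        (by rw [dist_self]; exact hδ'.le) (by rw [sub_self, abs_zero]; exact hδ'.le)
    have e4 := hz i σ hσ a ha
    have e5 := hz i σ hσ a' ha'
    refine dist_catf_le (fun u => h a a' _ _ u (by linarith) (by linarith) e1 e3)
      (dist_catf_le (fun u => h _ _ _ _ u (by linarith) (by linarith) e3
        (by rw [dist_self]; exact hδ.le)) fun u => by rw [dist_self]; exact hε.le)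
  · obtain ⟨δ, hδ, h⟩ := sg_unif (R := R) T.hU hRρ hε
    refine ⟨δ / r0, by positivity, fun σ hσ σ' hσ' hd a ha => ?_⟩
    have e3 : dist (LS.seg a (e (β i)) σ) (LS.seg a (e (β i)) σ') ≤ δ := by
      rw [LS.dist_seg_seg T.hU (by linarith [(hd1 i a ha).2]) hσ hσ']
      refine (mul_le_mul hd.le (hd1 i a ha).2 dist_nonneg (by positivity)).trans_eq ?_
      exact div_mul_cancel₀ _ hr0.ne'
    have e4 := hz i σ hσ a ha
    have e5 := hz i σ' hσ' a ha
    refine dist_catf_le (fun u => h a a _ _ u (by linarith) (by linarith)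
      (by rw [dist_self]; exact hδ.le) e3)
      (dist_catf_le (fun u => h _ _ _ _ u (by linarith) (by linarith) e3
        (by rw [dist_self]; exact hδ.le)) fun u => by rw [dist_self]; exact hε.le)
  -- behind `y`
  choose γ hγ1 hγ2 hγ3 hγ4 using fun i : J => T.exists_gamma (hd i) (hj i)
  have HC := uh_conj (m := R + ℓ)
    (D := fun i : J => NB (e (α i)) r0 ∩ NB (e (β i)) r0)
    (V := fun _ => {x₀}) hg hm ht
    (fun i σ a => catf R (sg R a (e (β i))) (γ i σ))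
    (fun i σ hσ a ha => ⟨x₀, rfl, (T.sgp le_rfl ha.2).cat (hγ4 i σ hσ) hR.le hℓ⟩)
    (fun ε hε => ?_)
    (fun i ε hε => ?_)
  rotate_left
  · obtain ⟨δ, hδ, h⟩ := sg_unif (R := R) T.hU hRρ hε
    refine ⟨δ, hδ, fun i σ hσ a ha a' ha' hd => dist_catf_le (fun u => h a a' _ _ u
      (by linarith [(hd1 i a ha).2]) (by linarith [(hd1 i a' ha').2]) hd.le
      (by rw [dist_self]; exact hδ.le)) fun u => by rw [dist_self]; exact hε.le⟩
  · have hu := isCompact_Icc.uniformContinuousOn_of_continuous (s := Icc (0:ℝ) 1)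
      (hγ1 i).continuousOn
    rw [Metric.uniformContinuousOn_iff] at hu
    obtain ⟨δ, hδ, h⟩ := hu ε hε
    refine ⟨δ, hδ, fun σ hσ σ' hσ' hd a ha => dist_catf_le
      (fun u => by rw [dist_self]; exact hε.le) fun u => ?_⟩
    exact (BoundedContinuousFunction.dist_coe_le_dist _).trans (h σ hσ σ' hσ' hd).le
  refine ((HA.congr (f' := fun i w => phI g R ℓ (e (α i)) (c (α i)) t w)
    (g' := fun i w => cg g (R + ℓ) t (catf R (sg R (w 0) (w 0))
      (catf R (sg R (w 0) (e (α i))) (c (α i)))) w) (fun i w hw => ?_) fun i w hw => ?_).trans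
    ((HB.congr (f' := fun i w => cg g (R + ℓ) t (catf R (sg R (w 0) (w 0))
      (catf R (sg R (w 0) (e (α i))) (c (α i)))) w)
    (g' := fun i w => cg g (R + ℓ) t (catf R (sg R (w 0) (e (β i)))
      (catf R (sg R (e (β i)) (e (α i))) (c (α i)))) w) (fun i w hw => ?_) fun i w hw => ?_).trans
    (HC.congr (f' := fun i w => cg g (R + ℓ) t (catf R (sg R (w 0) (e (β i)))
      (catf R (sg R (e (β i)) (e (α i))) (c (α i)))) w)
      (g' := fun i w => phI g R ℓ (e (β i)) (c (β i)) t w)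
      (fun i w hw => ?_) fun i w hw => ?_)))
  · show cg g _ t (fun u => catf R (sg R (w 0) (e (α i))) (c (α i)) (u - 0 * R)) w = _
    simp only [zero_mul, sub_zero]
    rfl
  · show cg g _ t (fun u => catf R (sg R (w 0) (e (α i))) (c (α i)) (u - 1 * R)) w = _
    congr 1
    funext u
    rw [one_mul]
    have hP := (T.sgp le_rfl hw.2.1).cat (T.hc (α i)) hR.le hℓ₀
    rcases le_total u R with h | h
    · rw [catf_left h, hP.2.1 _ (by linarith), sg_self]
    · have e' : sg R (w 0) (w 0) R = catf R (sg R (w 0) (e (α i))) (c (α i)) 0 := by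
        rw [sg_self, hP.2.1 _ le_rfl]
      rw [catf_right e' h]
  · show cg g _ t (catf R (sg R (w 0) (LS.seg (w 0) (e (β i)) 0)) (catf R (sg R
      (LS.seg (w 0) (e (β i)) 0) (e (α i))) (c (α i)))) w = _
    rw [LS.seg_zero]
  · show cg g _ t (catf R (sg R (w 0) (LS.seg (w 0) (e (β i)) 1)) (catf R (sg R
      (LS.seg (w 0) (e (β i)) 1) (e (α i))) (c (α i)))) w = _
    rw [LS.seg_one]
  · show cg g _ t (catf R (sg R (w 0) (e (β i))) (γ i 0)) w = _
    rw [hγ2]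
  · show cg g _ t (catf R (sg R (w 0) (e (β i))) (γ i 1)) w = _
    rw [hγ3]
    rfl

/-- **(G4)** for `φ` -/
theorem g4 (hg : ∀ x y, dist (g x) (g y) ≤ dist x y) (hs : 0 ≤ s) (hst : s ≤ t) :
    UH (fun i : I => XL g (NB (e i) r0) s) (fun _ => XL g {x₀} (t + (R + ℓ + (R + ℓ))))
      (fun i => phI g R ℓ (e i) (c i) s) fun i => phI g R ℓ (e i) (c i) t :=
  uh_level (D := fun i => NB (e i) r0) (V := fun _ => {x₀}) hg T.m_nonneg hs hst
    (fun i a => pF R (e i) (c i) a) (fun i a ha => ⟨x₀, rfl, T.pφ_pt le_rfl ha⟩)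
    fun ε hε => T.pφ_unif hε

/-- **(G4)** for `ψ` -/
theorem g4' (hg : ∀ x y, dist (g x) (g y) ≤ dist x y) (hs : 0 ≤ s) (hst : s ≤ t) :
    UH (fun _ : I => XL g {x₀} s) (fun i => XL g {e i} (t + (R + ℓ + (R + ℓ))))
      (fun i => psI g R ℓ (c i) s) fun i => psI g R ℓ (c i) t :=
  uh_level (D := fun _ => {x₀}) (V := fun i => {e i}) hg T.m_nonneg hs hst
    (fun i _ => pG ℓ (c i)) (fun i a ha => ⟨e i, rfl, by
      have h : a = x₀ := ha
      rw [h]
      exact T.pψ_pt i⟩) fun ε hε => ⟨1, one_pos, fun x a _ a' _ _ u => by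
      rw [dist_self]; exact hε.le⟩

end TrI

end Vale.Agent.P216.H971Z
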